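import Vale.Agent.P017.H185.Fam
import Vale.Agent.P014.H70.Fld

/-!
# Infinite families of discriminants without elements of order four
-/

namespace Vale.Agent.P014.H582

open NumberField Vale.Agent.P017.H185 Vale.Agent.P014.H70

/-- Dirichlet's theorem and the Chinese remainder theorem -/
theorem exists_prime_ext {M d q₁ : ℕ} (hM : M ≠ 0) (hM2 : 2 ∣ M) (hd : Squarefree d)
    (h60 : Nat.Coprime d M) (hq₁ : q₁.Prime) (hq₁d : q₁ ∣ d) (B : ℕ) :
    ∃ p > B, p.Prime ∧ p ≡ 1 [MOD M] ∧ ¬ IsSquare (p : ZMod q₁) ∧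
      ∀ q : ℕ, q.Prime → q ∣ d → q ≠ q₁ → IsSquare (p : ZMod q) := by
  obtain ⟨e, he⟩ := hq₁d
  have hF := Fact.mk hq₁
  have hq2 : q₁ ≠ 2 := by
    rintro rfl
    have h1 := Nat.Coprime.coprime_dvd_left ⟨e, he⟩ h60
    have h2 : Nat.Coprime 2 2 := Nat.Coprime.coprime_dvd_right hM2 h1
    norm_num at h2
  obtain ⟨r, hr⟩ := FiniteField.exists_nonsquare (F := ZMod q₁) (by rwa [ZMod.ringChar_zmod_n])
  have hqe : Nat.Coprime q₁ e := by rw [he] at hd; exact Nat.coprime_of_squarefree_mul hd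
  have hq60 : Nat.Coprime q₁ M := Nat.Coprime.coprime_dvd_left ⟨e, he⟩ h60
  have hcop : Nat.Coprime q₁ (M * e) := Nat.Coprime.mul_right hq60 hqe
  obtain ⟨n, hn1, hn2⟩ := Nat.chineseRemainder hcop r.val 1
  have hnq : ((n : ℕ) : ZMod q₁) = r := by
    have := (ZMod.natCast_eq_natCast_iff _ _ _).mpr hn1
    rw [this]; simp
  have hr0 : r ≠ 0 := by rintro rfl; exact hr ⟨0, by simp⟩
  have hc1 : Nat.Coprime n q₁ := by
    rw [Nat.coprime_comm, Nat.Prime.coprime_iff_not_dvd hq₁]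
    intro h
    rw [← ZMod.natCast_eq_zero_iff, hnq] at h
    exact hr0 h
  have hc2 : Nat.Coprime n (M * e) := by
    have := hn2.gcd_eq
    rw [Nat.gcd_one_left] at this
    exact this
  have he0 : e ≠ 0 := by rintro rfl; exact hd.ne_zero (by rw [he, mul_zero])
  have hNZ : NeZero (q₁ * (M * e)) :=
    ⟨mul_ne_zero hq₁.ne_zero (mul_ne_zero hM he0)⟩
  obtain ⟨p, hpB, hp, hpn⟩ := Nat.forall_exists_prime_gt_and_eq_mod (q := q₁ * (M * e))
    (a := (n : ZMod (q₁ * (M * e)))) ((ZMod.isUnit_iff_coprime _ _).mpr (hc1.mul_right hc2)) B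
  have hpn' : p ≡ n [MOD q₁ * (M * e)] := (ZMod.natCast_eq_natCast_iff _ _ _).mp hpn
  have h1 : p ≡ n [MOD q₁] := hpn'.of_mul_right _
  have h2 : p ≡ 1 [MOD M * e] := (hpn'.of_mul_left _).trans hn2
  refine ⟨p, hpB, hp, ?_, ?_, ?_⟩
  · exact h2.of_mul_right _
  · rw [(ZMod.natCast_eq_natCast_iff _ _ _).mpr h1, hnq]; exact hr
  · intro q hq hqd hqq
    have hqe : q ∣ e := by
      rw [he] at hqd
      rcases (Nat.Prime.dvd_mul hq).mp hqd with h | h
      · exact absurd ((Nat.prime_dvd_prime_iff_eq hq hq₁).mp h) hqq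
      · exact h
    have h3 : p ≡ 1 [MOD q] := (h2.of_mul_left _).of_dvd hqe
    rw [(ZMod.natCast_eq_natCast_iff _ _ _).mpr h3]
    exact ⟨1, by simp⟩

/-- numbers `n = 3 mod 68` with exactly one prime factor `3 mod 4` and Rédei's condition -/
theorem exists_fam (m : ℕ) : ∀ B : ℕ, ∃ d > B, Squarefree d ∧ d.primeFactors.card = m + 1 ∧
    d % 68 = 3 ∧ Redei d ∧ ∃! q : ℕ, q.Prime ∧ q ∣ d ∧ q % 4 = 3 := by
  induction m with
  | zero =>
    intro B
    obtain ⟨p, hpB, hp, hpn⟩ := Nat.forall_exists_prime_gt_and_eq_mod (q := 68)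
      (a := ((3 : ℕ) : ZMod 68)) ((ZMod.isUnit_iff_coprime 3 68).mpr (by norm_num)) B
    have hp68 : p % 68 = 3 := (ZMod.natCast_eq_natCast_iff _ _ _).mp hpn
    refine ⟨p, hpB, hp.squarefree, ?_, hp68, Redei.of_prime hp, p, ⟨hp, dvd_rfl, by omega⟩, ?_⟩
    · rw [hp.primeFactors]; simp
    · rintro q ⟨hq, hqp, -⟩
      exact (Nat.prime_dvd_prime_iff_eq hq hp).mp hqp
  | succ m ih =>
    intro B
    obtain ⟨d, -, hd, hcard, hd60, hR, q₀, ⟨h1, h2, h3⟩, h4⟩ := ih 0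
    have hd1 : d ≠ 1 := by rintro rfl; norm_num at hd60
    have hq₁ := Nat.minFac_prime hd1
    have hcop : Nat.Coprime d 68 := by
      rw [Nat.Coprime, Nat.gcd_comm, Nat.gcd_rec, hd60]; norm_num
    obtain ⟨p, hpB, hp, hp60, hns, hs⟩ := exists_prime_ext (M := 68) (by norm_num) (by norm_num)
      hd hcop hq₁ (Nat.minFac_dvd d) (max B d)
    have hp68 : p % 68 = 1 := hp60
    have hpB' : B < p := lt_of_le_of_lt (le_max_left _ _) hpB
    have hpd' : d < p := lt_of_le_of_lt (le_max_right _ _) hpB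
    have hd0 : 0 < d := Nat.pos_of_ne_zero hd.ne_zero
    have hpd : ¬ p ∣ d := fun h => absurd (Nat.le_of_dvd hd0 h) (by omega)
    have hc : Nat.Coprime d p := by
      rw [Nat.coprime_comm, Nat.Prime.coprime_iff_not_dvd hp]; exact hpd
    refine ⟨d * p, by nlinarith, ?_, ?_, ?_, ?_, q₀, ⟨h1, h2.mul_right _, h3⟩, ?_⟩
    · rw [Nat.squarefree_mul hc]; exact ⟨hd, hp.squarefree⟩
    · rw [Nat.Coprime.primeFactors_mul hc, Finset.card_union_of_disjoint
        hc.disjoint_primeFactors, hcard, hp.primeFactors]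
      simp
    · rw [Nat.mul_mod, hd60, hp68]
    · exact Redei.mul_prime hd (Nat.odd_iff.mpr (by omega)) hR hp (by omega) hpd hq₁
        (Nat.minFac_dvd d) hns hs
    · rintro q ⟨hq, hqd, hq4⟩
      rcases (Nat.Prime.dvd_mul hq).mp hqd with h | h
      · exact h4 q ⟨hq, h, hq4⟩
      · have : q = p := (Nat.prime_dvd_prime_iff_eq hq hp).mp h
        omega

/-- for every `t ≥ 1` there are arbitrarily large `n` of the family with exactly `t` prime
factors -/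
theorem exists_large {t : ℕ} (ht : 1 ≤ t) (N : ℕ) : ∃ n > N, Squarefree n ∧ n % 4 = 3 ∧
    (∃! q : ℕ, q.Prime ∧ q ∣ n ∧ q % 4 = 3) ∧ ¬ IsSquare (n : ZMod 17) ∧
      n.primeFactors.card = t ∧ ∀ c : ClassGroup (𝓞 (Kn n)), orderOf c ≠ 4 := by
  obtain ⟨m, rfl⟩ : ∃ m, t = m + 1 := ⟨t - 1, by omega⟩
  obtain ⟨n, hnN, hn, hcard, hn68, hR, hu⟩ := exists_fam m N
  refine ⟨n, hnN, hn, by omega, hu, ?_, hcard, ?_⟩
  · intro h
    have h1 : ((n : ℕ) : ZMod 17) = ((3 : ℕ) : ZMod 17) := by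
      rw [ZMod.natCast_eq_natCast_iff]
      show n % 17 = 3 % 17
      omega
    rw [h1] at h
    revert h
    decide
  · exact (qf n hn).no_order_four (by omega) hR

/-- **Infinite families**: any number of ramified primes. -/
theorem families {t : ℕ} (ht : 1 ≤ t) :
    {n : ℕ | Squarefree n ∧ n % 4 = 3 ∧ (∃! q : ℕ, q.Prime ∧ q ∣ n ∧ q % 4 = 3) ∧
      ¬ IsSquare (n : ZMod 17) ∧ n.primeFactors.card = t ∧
        ∀ c : ClassGroup (𝓞 (Kn n)), orderOf c ≠ 4}.Infinite := by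
  apply Set.infinite_of_forall_exists_gt
  intro B
  obtain ⟨n, hn, h⟩ := exists_large ht B
  exact ⟨n, h, hn⟩

end Vale.Agent.P014.H582
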